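import Crest.Agent.PVb.Lib.PT.All
import Crest.Prelude.Def_WordRAM

-- ▼ part PVb/R309/RamAux1
section

/-!
# R309: four-stack programs on the word RAM
-/

set_option linter.dupNamespace false

namespace Crest.Agent.R309.RamAux

open Crest.Agent.Lib.PT Crest.WordRAM

/-- A bit stack as a number. -/
def num : List Bool → ℕ
  | [] => 1
  | b :: l => 2 * num l + b.toNat

theorem num_pos (l : List Bool) : 0 < num l := by
  induction l with
  | nil => exact Nat.one_pos
  | cons b l ih => simp only [num]; omega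

theorem num_lt (l : List Bool) : num l < 2 ^ (l.length + 1) := by
  induction l with
  | nil => simp [num]
  | cons b l ih =>
    have : b.toNat ≤ 1 := Bool.toNat_le b
    simp only [num, List.length_cons, pow_succ] at ih ⊢
    omega

theorem num_cons_ne_one (b : Bool) (l : List Bool) : num (b :: l) ≠ 1 := by
  have := num_pos l
  simp only [num]; omega

theorem num_cons_and (b : Bool) (l : List Bool) : num (b :: l) &&& 1 = b.toNat := by
  have : b.toNat ≤ 1 := Bool.toNat_le b
  rw [Nat.and_one_is_mod, num]; omega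

theorem num_cons_shr (b : Bool) (l : List Bool) : num (b :: l) >>> 1 = num l := by
  have : b.toNat ≤ 1 := Bool.toNat_le b
  rw [Nat.shiftRight_one, num]; omega

/-- The register file: `0` output length, `1` output address, `2` the constant one, `3`-`6` the
stacks, `7` scratch, `8` state, `9` argument, `10` address, `11` value. -/
def vec (k m a b c t S U X Y : ℕ) : Fin 12 → ℕ := ![k, 0, 1, m, a, b, c, t, S, U, X, Y]

section vec
variable (k m a b c t S U X Y v : ℕ)

@[simp] theorem vec0 : vec k m a b c t S U X Y 0 = k := rfl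
@[simp] theorem vec1 : vec k m a b c t S U X Y 1 = 0 := rfl
@[simp] theorem vec2 : vec k m a b c t S U X Y 2 = 1 := rfl
@[simp] theorem vec3 : vec k m a b c t S U X Y 3 = m := rfl
@[simp] theorem vec4 : vec k m a b c t S U X Y 4 = a := rfl
@[simp] theorem vec5 : vec k m a b c t S U X Y 5 = b := rfl
@[simp] theorem vec6 : vec k m a b c t S U X Y 6 = c := rfl
@[simp] theorem vec7 : vec k m a b c t S U X Y 7 = t := rfl
@[simp] theorem vec8 : vec k m a b c t S U X Y 8 = S := rfl
@[simp] theorem vec9 : vec k m a b c t S U X Y 9 = U := rfl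
@[simp] theorem vec10 : vec k m a b c t S U X Y 10 = X := rfl
@[simp] theorem vec11 : vec k m a b c t S U X Y 11 = Y := rfl

@[simp] theorem wr0 : writeReg (vec k m a b c t S U X Y) 0 v = vec v m a b c t S U X Y := by
  funext j; fin_cases j <;> rfl
@[simp] theorem wr3 : writeReg (vec k m a b c t S U X Y) 3 v = vec k v a b c t S U X Y := by
  funext j; fin_cases j <;> rfl
@[simp] theorem wr4 : writeReg (vec k m a b c t S U X Y) 4 v = vec k m v b c t S U X Y := by
  funext j; fin_cases j <;> rfl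
@[simp] theorem wr5 : writeReg (vec k m a b c t S U X Y) 5 v = vec k m a v c t S U X Y := by
  funext j; fin_cases j <;> rfl
@[simp] theorem wr6 : writeReg (vec k m a b c t S U X Y) 6 v = vec k m a b v t S U X Y := by
  funext j; fin_cases j <;> rfl
@[simp] theorem wr7 : writeReg (vec k m a b c t S U X Y) 7 v = vec k m a b c v S U X Y := by
  funext j; fin_cases j <;> rfl
@[simp] theorem wr8 : writeReg (vec k m a b c t S U X Y) 8 v = vec k m a b c t v U X Y := by
  funext j; fin_cases j <;> rfl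
@[simp] theorem wr9 : writeReg (vec k m a b c t S U X Y) 9 v = vec k m a b c t S v X Y := by
  funext j; fin_cases j <;> rfl
@[simp] theorem wr10 : writeReg (vec k m a b c t S U X Y) 10 v = vec k m a b c t S U v Y := by
  funext j; fin_cases j <;> rfl
@[simp] theorem wr11 : writeReg (vec k m a b c t S U X Y) 11 v = vec k m a b c t S U X v := by
  funext j; fin_cases j <;> rfl

end vec

/-- The register of a stack. -/
def reg : R → Fin 12
  | .m => 3
  | .a => 4
  | .b => 5
  | .c => 6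

/-- The register file holding four stacks. -/
def put (k : ℕ) (s : St) (t S U X Y : ℕ) : Fin 12 → ℕ :=
  vec k (num s.m) (num s.a) (num s.b) (num s.c) t S U X Y

section put
variable (k : ℕ) (s : St) (t S U X Y : ℕ)

@[simp] theorem put_reg (r : R) : put k s t S U X Y (reg r) = num (s.get r) := by cases r <;> rfl
@[simp] theorem put2 : put k s t S U X Y 2 = 1 := rfl
@[simp] theorem put7 : put k s t S U X Y 7 = t := rfl
@[simp] theorem wr_put7 (v : ℕ) : writeReg (put k s t S U X Y) 7 v = put k s v S U X Y := wr7 ..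

theorem wr_put (r : R) (l : List Bool) :
    writeReg (put k s t S U X Y) (reg r) (num l) = put k (s.set r l) t S U X Y := by
  cases r <;> simp [put, reg]

end put

theorem get_set (s : St) (r : R) (l : List Bool) : (s.set r l).get r = l := by cases r <;> rfl

theorem set_set (s : St) (r : R) (l l' : List Bool) : (s.set r l).set r l' = s.set r l' := by
  cases r <;> rfl

theorem length_get_le (s : St) (r : R) : (s.get r).length ≤ s.tot := by
  cases r <;> simp [St.tot] <;> omega

/-- Length of the compiled code. -/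
def len : Prog → ℕ
  | .skip => 0
  | .push _ false => 1
  | .push _ true => 2
  | .seq p q => len p + len q
  | .case _ pe pf pt => 4 + len pt + 1 + len pf + 1 + len pe
  | .loop _ pf pt => 4 + len pt + 1 + len pf + 1
  | .wh _ p => 3 + len p + 1

/-- Pop a bit from a nonempty stack and jump if it is `false`. -/
def popI (r : R) (z : ℕ) : List (Instr 12) :=
  [.and 7 (reg r) 2, .shr (reg r) (reg r) 2, .jumpIfZero 7 z]

/-- The compiled code, placed at offset `o`. -/
def rcode : Prog → ℕ → List (Instr 12)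
  | .skip, _ => []
  | .push r false, _ => [.add (reg r) (reg r) (reg r)]
  | .push r true, _ => [.add (reg r) (reg r) (reg r), .add (reg r) (reg r) 2]
  | .seq p q, o => rcode p o ++ rcode q (o + len p)
  | .case r pe pf pt, o =>
      .jumpIfEq (reg r) 2 (o + 4 + len pt + 1 + len pf + 1) ::
        (popI r (o + 4 + len pt + 1) ++ (rcode pt (o + 4) ++
          (.jump (o + 4 + len pt + 1 + len pf + 1 + len pe) :: (rcode pf (o + 4 + len pt + 1) ++
            (.jump (o + 4 + len pt + 1 + len pf + 1 + len pe) ::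
              rcode pe (o + 4 + len pt + 1 + len pf + 1))))))
  | .loop r pf pt, o =>
      .jumpIfEq (reg r) 2 (o + 4 + len pt + 1 + len pf + 1) ::
        (popI r (o + 4 + len pt + 1) ++ (rcode pt (o + 4) ++
          (.jump o :: (rcode pf (o + 4 + len pt + 1) ++ [.jump o]))))
  | .wh r p, o => popI r (o + 3 + len p + 1) ++ (rcode p (o + 3) ++ [.jump o])

@[simp] theorem length_popI (r : R) (z : ℕ) : (popI r z).length = 3 := rfl

@[simp] theorem length_rcode (p : Prog) : ∀ o, (rcode p o).length = len p := by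
  induction p with
  | skip => intro o; rfl
  | push r x => intro o; cases x <;> rfl
  | seq p q ihp ihq => intro o; simp [rcode, len, ihp, ihq]
  | case r pe pf pt h1 h2 h3 => intro o; simp [rcode, len, h1, h2, h3]; omega
  | loop r pf pt h2 h3 => intro o; simp [rcode, len, h2, h3]; omega
  | wh r p h => intro o; simp [rcode, len, h]; omega

/-- The list `L` contains `c` at offset `o`. -/
def At (L : List (Instr 12)) : ℕ → List (Instr 12) → Prop
  | _, [] => True
  | o, x :: c => L[o]? = some x ∧ At L (o + 1) c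

theorem at_cons {L : List (Instr 12)} {o : ℕ} {x : Instr 12} {c : List (Instr 12)} :
    At L o (x :: c) ↔ L[o]? = some x ∧ At L (o + 1) c := Iff.rfl

theorem at_append {L : List (Instr 12)} {c c' : List (Instr 12)} :
    ∀ {o : ℕ}, At L o (c ++ c') ↔ At L o c ∧ At L (o + c.length) c' := by
  induction c with
  | nil => intro o; simp [At]
  | cons x c ih =>
    intro o
    rw [List.cons_append, at_cons, at_cons, ih, List.length_cons, and_assoc,
      show o + 1 + c.length = o + (c.length + 1) by omega]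

theorem at_self_aux (c : List (Instr 12)) : ∀ pre : List (Instr 12), At (pre ++ c) pre.length c := by
  induction c with
  | nil => intro pre; trivial
  | cons x c ih =>
    intro pre
    refine ⟨by simp, ?_⟩
    have := ih (pre ++ [x])
    simpa using this

theorem at_self (L : List (Instr 12)) : At L 0 L := at_self_aux L []

section run
variable (L : List (Instr 12)) (w : ℕ) (ρ : ℕ → ℕ)

/-- One step. -/
def stp (c : Cfg 12) : Cfg 12 := step ⟨12, L⟩ w ρ c

/-- `c'` is reached from `c` within `n` steps. -/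
def Rch (n : ℕ) (c c' : Cfg 12) : Prop := ∃ k ≤ n, (stp L w ρ)^[k] c = c'

variable {L w ρ}

theorem Rch.refl (c : Cfg 12) : Rch L w ρ 0 c c := ⟨0, le_rfl, rfl⟩

theorem Rch.mono {n n' : ℕ} {c c' : Cfg 12} (h : Rch L w ρ n c c') (hn : n ≤ n') :
    Rch L w ρ n' c c' := by
  obtain ⟨k, hk, e⟩ := h
  exact ⟨k, hk.trans hn, e⟩

theorem Rch.trans {n n' : ℕ} {c c' c'' : Cfg 12} (h : Rch L w ρ n c c')
    (h' : Rch L w ρ n' c' c'') : Rch L w ρ (n + n') c c'' := by
  obtain ⟨k, hk, e⟩ := h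
  obtain ⟨k', hk', e'⟩ := h'
  exact ⟨k' + k, by omega, by rw [Function.iterate_add_apply, e, e']⟩

theorem Rch.one {c c' : Cfg 12} (h : stp L w ρ c = c') : Rch L w ρ 1 c c' := ⟨1, le_rfl, h⟩

theorem Rch.congr {n : ℕ} {c c' d : Cfg 12} (h : Rch L w ρ n c c') (e : c' = d) :
    Rch L w ρ n c d := e ▸ h

variable {o : ℕ} {Rg : Fin 12 → ℕ} {M : ℕ → ℕ} {D : ℕ}

theorem r_const {d : Fin 12} {v : ℕ} (h : L[o]? = some (.const d v)) (hv : v < 2 ^ w) :
    Rch L w ρ 1 ⟨o, false, Rg, M, D⟩ ⟨o + 1, false, writeReg Rg d v, M, D⟩ :=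
  Rch.one (by simp [stp, step, h, Nat.mod_eq_of_lt hv])

theorem r_copy {d s : Fin 12} (h : L[o]? = some (.copy d s)) :
    Rch L w ρ 1 ⟨o, false, Rg, M, D⟩ ⟨o + 1, false, writeReg Rg d (Rg s), M, D⟩ :=
  Rch.one (by simp [stp, step, h])

theorem r_add {d a b : Fin 12} (h : L[o]? = some (.add d a b)) (hv : Rg a + Rg b < 2 ^ w) :
    Rch L w ρ 1 ⟨o, false, Rg, M, D⟩ ⟨o + 1, false, writeReg Rg d (Rg a + Rg b), M, D⟩ :=
  Rch.one (by simp [stp, step, h, Nat.mod_eq_of_lt hv])

theorem r_sub {d a b : Fin 12} (h : L[o]? = some (.sub d a b)) :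
    Rch L w ρ 1 ⟨o, false, Rg, M, D⟩ ⟨o + 1, false, writeReg Rg d (Rg a - Rg b), M, D⟩ :=
  Rch.one (by simp [stp, step, h])

theorem r_and {d a b : Fin 12} (h : L[o]? = some (.and d a b)) :
    Rch L w ρ 1 ⟨o, false, Rg, M, D⟩ ⟨o + 1, false, writeReg Rg d (Rg a &&& Rg b), M, D⟩ :=
  Rch.one (by simp [stp, step, h])

theorem r_shr {d a b : Fin 12} (h : L[o]? = some (.shr d a b)) (hv : Rg b < w) :
    Rch L w ρ 1 ⟨o, false, Rg, M, D⟩ ⟨o + 1, false, writeReg Rg d (Rg a >>> Rg b), M, D⟩ :=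
  Rch.one (by simp [stp, step, h, hv])

theorem r_load {d a : Fin 12} (h : L[o]? = some (.load d a)) :
    Rch L w ρ 1 ⟨o, false, Rg, M, D⟩ ⟨o + 1, false, writeReg Rg d (M (Rg a)), M, D⟩ :=
  Rch.one (by simp [stp, step, h])

theorem r_store {s a : Fin 12} (h : L[o]? = some (.store s a)) :
    Rch L w ρ 1 ⟨o, false, Rg, M, D⟩ ⟨o + 1, false, Rg, Function.update M (Rg a) (Rg s), D⟩ := by
  have : writeMem M (Rg a) (Rg s) = Function.update M (Rg a) (Rg s) := by
    funext i
    simp [writeMem, Function.update_apply]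
  exact Rch.one (by simp [stp, step, h, this])

theorem r_jump {z : ℕ} (h : L[o]? = some (.jump z)) :
    Rch L w ρ 1 ⟨o, false, Rg, M, D⟩ ⟨z, false, Rg, M, D⟩ :=
  Rch.one (by simp [stp, step, h])

theorem r_jz {a : Fin 12} {z : ℕ} (h : L[o]? = some (.jumpIfZero a z)) :
    Rch L w ρ 1 ⟨o, false, Rg, M, D⟩ ⟨if Rg a = 0 then z else o + 1, false, Rg, M, D⟩ :=
  Rch.one (by simp [stp, step, h])

theorem r_jeq {a b : Fin 12} {z : ℕ} (h : L[o]? = some (.jumpIfEq a b z)) :
    Rch L w ρ 1 ⟨o, false, Rg, M, D⟩ ⟨if Rg a = Rg b then z else o + 1, false, Rg, M, D⟩ :=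
  Rch.one (by simp [stp, step, h])

theorem r_rand {d : Fin 12} (h : L[o]? = some (.rand d)) :
    Rch L w ρ 1 ⟨o, false, Rg, M, D⟩ ⟨o + 1, false, writeReg Rg d (ρ D % 2 ^ w), M, D + 1⟩ :=
  Rch.one (by simp [stp, step, h])

theorem r_halt (h : L[o]? = some .halt) :
    Rch L w ρ 1 ⟨o, false, Rg, M, D⟩ ⟨o, true, Rg, M, D⟩ :=
  Rch.one (by simp [stp, step, h])

variable {k t S U X Y : ℕ}

theorem r_pop {r : R} {z : ℕ} {s : St} {x : Bool} {l : List Bool} (hw : 1 < w)
    (h : At L o (popI r z)) (hs : s.get r = x :: l) :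
    Rch L w ρ 3 ⟨o, false, put k s t S U X Y, M, D⟩
      ⟨if x then o + 3 else z, false, put k (s.set r l) x.toNat S U X Y, M, D⟩ := by
  obtain ⟨h1, h2, h3, -⟩ := h
  refine (((r_and h1).trans (r_shr h2 (by simpa using hw))).trans (r_jz h3)).congr ?_
  simp only [put_reg, put2, wr_put7, hs, num_cons_and, num_cons_shr, wr_put, put7]
  cases x <;> simp

theorem r_nil {r : R} {z : ℕ} {s : St} (h : L[o]? = some (.jumpIfEq (reg r) 2 z))
    (hs : s.get r = []) :
    Rch L w ρ 1 ⟨o, false, put k s t S U X Y, M, D⟩ ⟨z, false, put k s t S U X Y, M, D⟩ :=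
  (r_jeq h).congr (by simp [hs, num])

theorem r_pop' {r : R} {z z' : ℕ} {s : St} {x : Bool} {l : List Bool} (hw : 1 < w)
    (h0 : L[o]? = some (.jumpIfEq (reg r) 2 z')) (h : At L (o + 1) (popI r z))
    (hs : s.get r = x :: l) :
    Rch L w ρ 4 ⟨o, false, put k s t S U X Y, M, D⟩
      ⟨if x then o + 4 else z, false, put k (s.set r l) x.toNat S U X Y, M, D⟩ := by
  have h1 : Rch L w ρ 1 ⟨o, false, put k s t S U X Y, M, D⟩
      ⟨o + 1, false, put k s t S U X Y, M, D⟩ :=
    (r_jeq h0).congr (by simp [hs, num_cons_ne_one])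
  exact h1.trans (r_pop hw h hs)

theorem tot_pop {s : St} {r : R} {x : Bool} {l : List Bool} (hs : s.get r = x :: l) :
    (s.set r l).tot + 1 = s.tot := by
  have := s.tot_set r l
  rw [hs] at this
  simp at this
  omega

/-- Simulation of four-stack programs. -/
theorem rch_of_exec (hw : 1 < w) {p : Prog} {s s' : St} {n : ℕ} (h : Exec p s s' n) :
    ∀ (o t : ℕ), At L o (rcode p o) → s.tot + n < w →
      ∃ t', Rch L w ρ (5 * n) ⟨o, false, put k s t S U X Y, M, D⟩
        ⟨o + len p, false, put k s' t' S U X Y, M, D⟩ := by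
  induction h with
  | mono _ hn ih =>
    intro o t hA hb
    obtain ⟨t', h⟩ := ih o t hA (by omega)
    exact ⟨t', h.mono (by omega)⟩
  | skip s => exact fun o t _ _ => ⟨t, (Rch.refl _).mono (by omega)⟩
  | push r x s =>
    intro o t hA hb
    have h1 := num_lt (x :: s.get r)
    have h2 := length_get_le s r
    have h3 : 2 ^ ((x :: s.get r).length + 1) ≤ 2 ^ w :=
      Nat.pow_le_pow_right (by omega) (by simp only [List.length_cons]; omega)
    have e : num (s.get r) + num (s.get r) = num (false :: s.get r) := by simp [num]; omega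
    refine ⟨t, ?_⟩
    cases x
    · refine ((r_add hA.1 (by simp only [put_reg]; omega)).congr ?_).mono (by omega)
      simp only [put_reg, e, wr_put, len]
    · have e' : num (false :: s.get r) + 1 = num (true :: s.get r) := by simp [num]
      have h4 : Rch L w ρ 1 ⟨o, false, put k s t S U X Y, M, D⟩
          ⟨o + 1, false, put k (s.set r (false :: s.get r)) t S U X Y, M, D⟩ :=
        (r_add hA.1 (by simp only [put_reg]; omega)).congr (by simp only [put_reg, e, wr_put])
      refine ((h4.trans (r_add hA.2.1 (by simp only [put_reg, put2, get_set]; omega))).congr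
        ?_).mono (by omega)
      simp only [put_reg, put2, get_set, e', wr_put, set_set, len]
  | seq h1 _ ih1 ih2 =>
    intro o t hA hb
    rw [rcode, at_append, length_rcode] at hA
    have := h1.tot_le
    obtain ⟨t1, r1⟩ := ih1 o t hA.1 (by omega)
    obtain ⟨t2, r2⟩ := ih2 _ t1 hA.2 (by omega)
    exact ⟨t2, ((r1.trans r2).congr (by simp only [len, Nat.add_assoc])).mono (by omega)⟩
  | caseE hs _ ih =>
    intro o t hA hb
    simp only [rcode, at_cons, at_append, length_rcode, length_popI] at hA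
    obtain ⟨a0, -, -, -, -, -, a6⟩ := hA
    obtain ⟨t1, r1⟩ := ih _ t a6 (by omega)
    exact ⟨t1, (((r_nil a0 hs).trans r1).congr (by simp only [len, ← Nat.add_assoc])).mono
      (by omega)⟩
  | caseF hs _ ih =>
    intro o t hA hb
    simp only [rcode, at_cons, at_append, length_rcode, length_popI] at hA
    obtain ⟨a0, a1, -, -, a4, a5, -⟩ := hA
    have := tot_pop hs
    obtain ⟨t1, r1⟩ := ih _ _ a4 (by omega)
    exact ⟨t1, ((((r_pop' hw a0 a1 hs).trans r1).trans (r_jump a5)).congr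
      (by simp only [len, Nat.add_assoc])).mono (by omega)⟩
  | caseT hs _ ih =>
    intro o t hA hb
    simp only [rcode, at_cons, at_append, length_rcode, length_popI] at hA
    obtain ⟨a0, a1, a2, a3, -⟩ := hA
    have := tot_pop hs
    obtain ⟨t1, r1⟩ := ih _ _ a2 (by omega)
    exact ⟨t1, ((((r_pop' hw a0 a1 hs).trans r1).trans (r_jump a3)).congr
      (by simp only [len, Nat.add_assoc])).mono (by omega)⟩
  | loopE hs =>
    intro o t hA hb
    exact ⟨t, ((r_nil hA.1 hs).congr (by simp only [len, Nat.add_assoc])).mono (by omega)⟩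
  | loopF hs h1 _ ih1 ih2 =>
    intro o t hA hb
    have hA' := hA
    simp only [rcode, at_cons, at_append, length_rcode, length_popI] at hA'
    obtain ⟨a0, a1, -, -, a4, a5, -⟩ := hA'
    have := tot_pop hs
    have := h1.tot_le
    obtain ⟨t1, r1⟩ := ih1 _ _ a4 (by omega)
    obtain ⟨t2, r2⟩ := ih2 o t1 hA (by omega)
    exact ⟨t2, ((((r_pop' hw a0 a1 hs).trans r1).trans (r_jump a5)).trans r2).mono (by omega)⟩
  | loopT hs h1 _ ih1 ih2 =>
    intro o t hA hb
    have hA' := hA
    simp only [rcode, at_cons, at_append, length_rcode, length_popI] at hA'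
    obtain ⟨a0, a1, a2, a3, -⟩ := hA'
    have := tot_pop hs
    have := h1.tot_le
    obtain ⟨t1, r1⟩ := ih1 _ _ a2 (by omega)
    obtain ⟨t2, r2⟩ := ih2 o t1 hA (by omega)
    exact ⟨t2, ((((r_pop' hw a0 a1 hs).trans r1).trans (r_jump a3)).trans r2).mono (by omega)⟩
  | whF hs =>
    intro o t hA hb
    rw [rcode, at_append] at hA
    exact ⟨_, ((r_pop hw hA.1 hs).congr (by simp only [len, Nat.add_assoc]; rfl)).mono (by omega)⟩
  | whT hs h1 _ ih1 ih2 =>
    intro o t hA hb
    have hA' := hA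
    simp only [rcode, at_cons, at_append, length_rcode, length_popI] at hA'
    obtain ⟨a1, a2, a3, -⟩ := hA'
    have := tot_pop hs
    have := h1.tot_le
    obtain ⟨t1, r1⟩ := ih1 _ _ a2 (by omega)
    obtain ⟨t2, r2⟩ := ih2 o t1 hA (by omega)
    exact ⟨t2, ((((r_pop hw a1 hs).trans r1).trans (r_jump a3)).trans r2).mono (by omega)⟩

end run

end Crest.Agent.R309.RamAux
private theorem rz_69532f95d1 : type_of% @_root_.Crest.Agent.R309.RamAux.At.eq_def := @_root_.Crest.Agent.R309.RamAux.At.eq_def -- L164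
private theorem rz_4961feda28 : type_of% @_root_.Crest.Agent.R309.RamAux.At.eq_1 := @_root_.Crest.Agent.R309.RamAux.At.eq_1 -- L164
private theorem rz_98b7e8f2d9 : type_of% @_root_.Crest.Agent.R309.RamAux.len.eq_def := @_root_.Crest.Agent.R309.RamAux.len.eq_def -- L121
private theorem rz_c9d6e27c35 : type_of% @_root_.Crest.Agent.R309.RamAux.len.eq_1 := @_root_.Crest.Agent.R309.RamAux.len.eq_1 -- L121
private theorem rz_f3ba168564 : type_of% @_root_.Crest.Agent.R309.RamAux.num.eq_def := @_root_.Crest.Agent.R309.RamAux.num.eq_def -- L15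
private theorem rz_28ac6b72d2 : type_of% @_root_.Crest.Agent.R309.RamAux.num.eq_1 := @_root_.Crest.Agent.R309.RamAux.num.eq_1 -- L15
private theorem rz_26cdc94b69 : type_of% @_root_.Crest.Agent.R309.RamAux.rcode.eq_def := @_root_.Crest.Agent.R309.RamAux.rcode.eq_def -- L135
private theorem rz_21b99f117b : type_of% @_root_.Crest.Agent.R309.RamAux.rcode.eq_1 := @_root_.Crest.Agent.R309.RamAux.rcode.eq_1 -- L135
private theorem rz_c872fb198c : type_of% @_root_.Crest.Agent.R309.RamAux.reg.eq_1 := @_root_.Crest.Agent.R309.RamAux.reg.eq_1 -- L88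
end

-- ▼ part PVb/R309/RamAux2

/-!
# R309: calls of polynomial-time functions on the word RAM; the main loop
-/

set_option linter.dupNamespace false

namespace Crest.Agent.R309.RamAux

open Crest.Agent.Lib.PT Crest.WordRAM

/-- The stack whose number is `v + 1`. -/
def raw (v : ℕ) : List Bool := (v + 1).bits.dropLast

theorem num_bits_dropLast (n : ℕ) (hn : n ≠ 0) : num n.bits.dropLast = n := by
  induction n using Nat.binaryRec' with
  | zero => exact absurd rfl hn
  | bit b n h ih =>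
    rw [Nat.bits_append_bit _ _ h]
    by_cases h0 : n = 0
    · subst h0
      rw [h rfl]
      rfl
    · have h1 : n.bits ≠ [] := fun e => h0 (by rw [← ofBits_bits n, e]; rfl)
      rw [List.dropLast_cons_of_ne_nil h1, num, ih h0, Nat.bit_val]

theorem num_raw (v : ℕ) : num (raw v) = v + 1 := num_bits_dropLast _ (Nat.succ_ne_zero v)


theorem length_raw_le {v B : ℕ} (h : v < 2 ^ B) : (raw v).length ≤ B := by
  have h1 : (v + 1).size ≤ B + 1 := Nat.size_le.2 (by rw [pow_succ]; omega)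
  rw [raw, List.length_dropLast, Nat.size_eq_bits_len]
  omega


/-- Move stack `a` to the main stack as the code of a list of bits. -/
def inW : Prog := .loop .a (.seq (.push .m false) (.push .m true))
  (.seq (.push .m false) (.seq (.push .m false) (.seq (.push .m true) (.push .m true))))

theorem exec_inW (l : List Bool) : ∀ (acc rest : List Bool),
    Exec inW ⟨(enc acc).bits ++ rest, l, [], []⟩
      ⟨(enc (l.reverse ++ acc)).bits ++ rest, [], [], []⟩ (5 * l.length + 1) := by
  induction l with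
  | nil => intro acc rest; exact Exec.loopE rfl
  | cons x l ih =>
    intro acc rest
    rw [List.reverse_cons, List.append_assoc]
    cases x
    · refine Exec.mono (Exec.loopF rfl (Exec.seq (Exec.push _ _ _) (Exec.push _ _ _))
        (ih (false :: acc) rest)) ?_
      simp; omega
    · refine Exec.mono (Exec.loopT rfl (Exec.seq (Exec.push _ _ _) (Exec.seq (Exec.push _ _ _)
        (Exec.seq (Exec.push _ _ _) (Exec.push _ _ _)))) (ih (true :: acc) rest)) ?_
      simp; omega

theorem exists_call {σ : Type} [Enc σ] {G : List Bool × σ → List Bool} (hG : PT G) :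
    ∃ (p : Prog) (c k : ℕ), ∀ x : List Bool × σ,
      Exec p ⟨toBits x.2, x.1, [], []⟩ ⟨G x, [], [], []⟩ (c * sz x ^ k) := by
  have hr : PT fun x : List Bool × σ => (x.1.reverse, x.2) := by fun_prop
  obtain ⟨T, hT, p, hp⟩ := hG.comp hr
  have h1 : PB fun x : List Bool × σ => T (x.1.reverse, x.2) := hT.comp hr
  obtain ⟨c, k, hck⟩ : PB fun x : List Bool × σ => 1 + ((5 * x.1.length + 1) +
      (1 + (T (x.1.reverse, x.2) + (9 * (G x).length + 2)))) := by fun_prop
  refine ⟨.seq (.push .m false) (.seq inW (.seq (.push .m true) (.seq p outP))), c, k,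
    fun x => Exec.mono ?_ (hck x)⟩
  have e1 := exec_inW x.1 [] (toBits x.2)
  have e2 := hp (x.1.reverse, x.2) []
  simp only [List.append_nil, List.reverse_reverse] at e1 e2
  exact Exec.seq (Exec.push _ _ _) (Exec.seq e1 (Exec.seq (Exec.push _ _ _)
    (Exec.seq e2 (exec_outP (G x)))))

/-- Call a four-stack program on the state and the argument in register `src`. -/
def call (src : Fin 12) (p : Prog) (o : ℕ) (tl : List (Instr 12)) : List (Instr 12) :=
  .copy 3 8 :: .copy 4 src :: (rcode p (o + 2) ++ tl)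

theorem length_call (src : Fin 12) (p : Prog) (o : ℕ) (tl : List (Instr 12)) :
    (call src p o tl).length = len p + tl.length + 2 := by simp [call]

variable {L : List (Instr 12)} {w : ℕ} {ρ : ℕ → ℕ}

theorem rch_call (hw : 1 < w) {p : Prog} {s0 l out : List Bool} {n o : ℕ} {src : Fin 12}
    {tl : List (Instr 12)} (h : Exec p ⟨s0, l, [], []⟩ ⟨out, [], [], []⟩ n)
    (hA : At L o (call src p o tl)) (hb : s0.length + l.length + n < w) (k m a t U X Y : ℕ)
    (M : ℕ → ℕ) (D : ℕ) (hsrc : vec k (num s0) a 1 1 t (num s0) U X Y src = num l) :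
    ∃ o' t', At L o' tl ∧ Rch L w ρ (5 * n + 2) ⟨o, false, vec k m a 1 1 t (num s0) U X Y, M, D⟩
      ⟨o', false, vec k (num out) 1 1 1 t' (num s0) U X Y, M, D⟩ := by
  obtain ⟨a1, a2, a3⟩ := hA
  rw [at_append, length_rcode] at a3
  obtain ⟨t', r⟩ := rch_of_exec (ρ := ρ) (M := M) (D := D) (k := k) (S := num s0) (U := U)
    (X := X) (Y := Y) hw h (o + 2) t a3.1 (by simpa [St.tot] using hb)
  have r0 : Rch L w ρ (1 + 1) ⟨o, false, vec k m a 1 1 t (num s0) U X Y, M, D⟩
      ⟨o + 2, false, vec k (num s0) (num l) 1 1 t (num s0) U X Y, M, D⟩ :=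
    ((r_copy a1).trans (r_copy a2)).congr (by simp [hsrc])
  exact ⟨_, t', a3.2, (r0.trans r).mono (by omega)⟩

/-- The layout of the simulating program. -/
structure Layout (L : List (Instr 12)) (p1 p2 p3 p4 p5 : Prog) (S0 o1 o2 o3 o4 o5 : ℕ) : Prop where
  b0 : At L 0 [.const 2 1, .const 5 1, .const 6 1, .const 8 S0, .jump o1]
  b1 : At L o1 (call 2 p1 o1 [.sub 10 3 2, .jumpIfZero 10 o2, .sub 0 10 2, .halt])
  b2 : At L o2 (call 2 p2 o2 [.sub 10 3 2, .load 11 10, .rand 7, .and 7 7 2, .add 9 11 2,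
    .add 9 9 9, .add 9 9 7, .jump o3])
  b3 : At L o3 (call 9 p3 o3 [.copy 8 3, .jump o4])
  b4 : At L o4 (call 2 p4 o4 [.sub 10 3 2, .jump o5])
  b5 : At L o5 (call 2 p5 o5 [.sub 11 3 2, .store 11 10, .jump o1])

theorem exists_layout (p1 p2 p3 p4 p5 : Prog) (S0 : ℕ) :
    ∃ L o1 o2 o3 o4 o5, Layout L p1 p2 p3 p4 p5 S0 o1 o2 o3 o4 o5 := by
  let o1 := 0 + 5
  let o2 := o1 + (len p1 + 4 + 2)
  let o3 := o2 + (len p2 + 8 + 2)
  let o4 := o3 + (len p3 + 2 + 2)
  let o5 := o4 + (len p4 + 2 + 2)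
  have h := at_self ([.const 2 1, .const 5 1, .const 6 1, .const 8 S0, .jump o1] ++
    (call 2 p1 o1 [.sub 10 3 2, .jumpIfZero 10 o2, .sub 0 10 2, .halt] ++
    (call 2 p2 o2 [.sub 10 3 2, .load 11 10, .rand 7, .and 7 7 2, .add 9 11 2,
      .add 9 9 9, .add 9 9 7, .jump o3] ++
    (call 9 p3 o3 [.copy 8 3, .jump o4] ++
    (call 2 p4 o4 [.sub 10 3 2, .jump o5] ++
    call 2 p5 o5 [.sub 11 3 2, .store 11 10, .jump o1])))))
  rw [at_append, at_append, at_append, at_append, at_append, length_call, length_call,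
    length_call, length_call] at h
  exact ⟨_, o1, o2, o3, o4, o5, h.1, h.2.1, h.2.2.1, h.2.2.2.1, h.2.2.2.2.1, h.2.2.2.2.2⟩

section main
variable {p1 p2 p3 p4 p5 : Prog} {S0 o1 o2 o3 o4 o5 : ℕ}

theorem Layout.start (h : Layout L p1 p2 p3 p4 p5 S0 o1 o2 o3 o4 o5) (hw : 1 < w)
    (hS : S0 < 2 ^ w) (inp : List ℕ) :
    Rch L w ρ 5 (init ⟨12, L⟩ w inp) ⟨o1, false, vec (inp.length % 2 ^ w) 0 0 1 1 0 S0 0 0 0,
      fun i => inp[i]?.getD 0 % 2 ^ w, 0⟩ := by
  obtain ⟨a1, a2, a3, a4, a5, -⟩ := h.b0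
  have h1 : 1 < 2 ^ w := Nat.one_lt_two_pow (by omega)
  refine (((((r_const a1 h1).trans (r_const a2 h1)).trans (r_const a3 h1)).trans
    (r_const a4 hS)).trans (r_jump a5)).congr ?_
  congr 1
  funext j
  fin_cases j <;> rfl

theorem Layout.stop (h : Layout L p1 p2 p3 p4 p5 S0 o1 o2 o3 o4 o5) (hw : 1 < w)
    {s : List Bool} {T q : ℕ} (e1 : Exec p1 ⟨s, [], [], []⟩ ⟨raw (q + 1), [], [], []⟩ T)
    (hb : s.length + T < w) (k m a t U X Y : ℕ) (M : ℕ → ℕ) (D : ℕ) :
    ∃ c : Cfg 12, c.halted = true ∧ c.output = (List.range q).map M ∧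
      Rch L w ρ (5 * T + 6) ⟨o1, false, vec k m a 1 1 t (num s) U X Y, M, D⟩ c := by
  obtain ⟨o', t', ⟨a1, a2, a3, a4, -⟩, r⟩ :=
    rch_call (ρ := ρ) hw e1 h.b1 (by simpa using hb) k m a t U X Y M D rfl
  have r1 : Rch L w ρ (1 + 1) ⟨o', false, vec k (num (raw (q + 1))) 1 1 1 t' (num s) U X Y, M, D⟩
      ⟨o' + 1 + 1, false, vec k (num (raw (q + 1))) 1 1 1 t' (num s) U (q + 1) Y, M, D⟩ :=
    ((r_sub a1).trans (r_jz a2)).congr (by simp [num_raw])
  refine ⟨_, ?_, ?_, (((r.trans r1).trans (r_sub a3)).trans (r_halt a4)).mono (by omega)⟩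
  · rfl
  · simp [Cfg.output, Cfg.reg]

theorem Layout.iter (h : Layout L p1 p2 p3 p4 p5 S0 o1 o2 o3 o4 o5) (hw : 1 < w)
    {s s' : List Bool} {T ra wa wv B D : ℕ} {M : ℕ → ℕ}
    (e1 : Exec p1 ⟨s, [], [], []⟩ ⟨raw 0, [], [], []⟩ T)
    (e2 : Exec p2 ⟨s, [], [], []⟩ ⟨raw ra, [], [], []⟩ T)
    (e3 : Exec p3 ⟨s, (ρ D % 2 ^ w).bodd :: raw (M ra), [], []⟩ ⟨s', [], [], []⟩ T)
    (e4 : Exec p4 ⟨s', [], [], []⟩ ⟨raw wa, [], [], []⟩ T)
    (e5 : Exec p5 ⟨s', [], [], []⟩ ⟨raw wv, [], [], []⟩ T)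
    (hM : M ra < 2 ^ B) (hb : s.length + (B + 1) + T + 1 < w) (hb' : s'.length + T < w)
    (k m a t U X Y : ℕ) :
    ∃ m' a' t' U' X' Y', Rch L w ρ (25 * T + 27)
      ⟨o1, false, vec k m a 1 1 t (num s) U X Y, M, D⟩
      ⟨o1, false, vec k m' a' 1 1 t' (num s') U' X' Y', Function.update M wa wv, D + 1⟩ := by
  have hl := length_raw_le hM
  have hp : 2 ^ (B + 2) ≤ 2 ^ w := Nat.pow_le_pow_right (by omega) (by omega)
  have hp' : 2 ^ (B + 2) = 4 * 2 ^ B := by ring
  obtain ⟨q1, t1, ⟨a1, a2, -⟩, r1⟩ :=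
    rch_call (ρ := ρ) hw e1 h.b1 (by simp only [List.length_nil]; omega) k m a t U X Y M D rfl
  have r1' : Rch L w ρ (1 + 1) ⟨q1, false, vec k (num (raw 0)) 1 1 1 t1 (num s) U X Y, M, D⟩
      ⟨o2, false, vec k (num (raw 0)) 1 1 1 t1 (num s) U 0 Y, M, D⟩ :=
    ((r_sub a1).trans (r_jz a2)).congr (by simp [num_raw])
  obtain ⟨q2, t2, ⟨b1, b2, b3, b4, b5, b6, b7, b8, -⟩, r2⟩ :=
    rch_call (ρ := ρ) hw e2 h.b2 (by simp only [List.length_nil]; omega) k (num (raw 0)) 1 t1 U 0 Y
      M D rfl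
  have hbit : ρ D % 2 ^ w &&& 1 = (ρ D % 2 ^ w).bodd.toNat := by
    rw [Nat.and_one_is_mod, Nat.mod_two_of_bodd]
  have hb1 : (ρ D % 2 ^ w).bodd.toNat ≤ 1 := Bool.toNat_le _
  have r2a : Rch L w ρ (1 + 1 + 1 + 1)
      ⟨q2, false, vec k (num (raw ra)) 1 1 1 t2 (num s) U 0 Y, M, D⟩
      ⟨q2 + 1 + 1 + 1 + 1, false,
        vec k (num (raw ra)) 1 1 1 (ρ D % 2 ^ w).bodd.toNat (num s) U ra (M ra), M, D + 1⟩ :=
    ((((r_sub b1).trans (r_load b2)).trans (r_rand b3)).trans (r_and b4)).congr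
      (by simp only [vec2, vec3, vec7, vec10, wr7, wr10, wr11, num_raw, hbit, Nat.add_sub_cancel])
  have r2b : Rch L w ρ (1 + 1 + 1 + 1) ⟨q2 + 1 + 1 + 1 + 1, false,
        vec k (num (raw ra)) 1 1 1 (ρ D % 2 ^ w).bodd.toNat (num s) U ra (M ra), M, D + 1⟩
      ⟨o3, false, vec k (num (raw ra)) 1 1 1 (ρ D % 2 ^ w).bodd.toNat (num s)
        (num ((ρ D % 2 ^ w).bodd :: raw (M ra))) ra (M ra), M, D + 1⟩ := by
    refine ((((r_add b5 ?_).trans (r_add b6 ?_)).trans (r_add b7 ?_)).trans (r_jump b8)).congr ?_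
    · simp only [vec2, vec11]; omega
    · simp only [vec2, vec9, vec11, wr9]; omega
    · simp only [vec2, vec7, vec9, vec11, wr9]; omega
    · simp only [vec2, vec7, vec9, vec11, wr9, num, num_raw, two_mul]
  obtain ⟨q3, t3, ⟨c1, c2, -⟩, r3⟩ :=
    rch_call (ρ := ρ) hw e3 h.b3 (by simp only [List.length_cons]; omega) k (num (raw ra)) 1
      (ρ D % 2 ^ w).bodd.toNat (num ((ρ D % 2 ^ w).bodd :: raw (M ra))) ra (M ra) M (D + 1) rfl
  have r3' := ((r_copy (w := w) (ρ := ρ) (Rg := vec k (num s') 1 1 1 t3 (num s)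
    (num ((ρ D % 2 ^ w).bodd :: raw (M ra))) ra (M ra)) (M := M) (D := D + 1) c1).trans
      (r_jump c2))
  simp only [vec3, wr8] at r3'
  obtain ⟨q4, t4, ⟨d1, d2, -⟩, r4⟩ :=
    rch_call (ρ := ρ) hw e4 h.b4 (by simp only [List.length_nil]; omega) k (num s') 1 t3
      (num ((ρ D % 2 ^ w).bodd :: raw (M ra))) ra (M ra) M (D + 1) rfl
  have r4' := ((r_sub (w := w) (ρ := ρ) (Rg := vec k (num (raw wa)) 1 1 1 t4 (num s')
    (num ((ρ D % 2 ^ w).bodd :: raw (M ra))) ra (M ra)) (M := M) (D := D + 1) d1).trans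
      (r_jump d2))
  simp only [vec2, vec3, wr10] at r4'
  obtain ⟨q5, t5, ⟨f1, f2, f3, -⟩, r5⟩ :=
    rch_call (ρ := ρ) hw e5 h.b5 (by simp only [List.length_nil]; omega) k (num (raw wa)) 1 t4
      (num ((ρ D % 2 ^ w).bodd :: raw (M ra))) (num (raw wa) - 1) (M ra) M (D + 1) rfl
  have r5' := (((r_sub (w := w) (ρ := ρ) (Rg := vec k (num (raw wv)) 1 1 1 t5 (num s')
    (num ((ρ D % 2 ^ w).bodd :: raw (M ra))) (num (raw wa) - 1) (M ra)) (M := M) (D := D + 1)
      f1).trans (r_store f2)).trans (r_jump f3))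
  simp only [vec2, vec3, vec10, vec11, wr11] at r5'
  have fin := (((((((((r1.trans r1').trans r2).trans r2a).trans r2b).trans r3).trans r3').trans
    r4).trans r4').trans r5).trans r5'
  simp only [num_raw, Nat.add_sub_cancel] at fin
  exact ⟨_, _, _, _, _, _, fin.mono (by omega)⟩

end main



theorem iterate_of_halted {c : Cfg 12} (h : c.halted = true) (k : ℕ) : (stp L w ρ)^[k] c = c :=
  Function.iterate_fixed (by simp [stp, step, h]) k

theorem Rch.iterate_eq {n T : ℕ} {c c' : Cfg 12} (h : Rch L w ρ n c c') (hc : c'.halted = true)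
    (hT : n ≤ T) : (stp L w ρ)^[T] c = c' := by
  obtain ⟨k, hk, e⟩ := h
  obtain ⟨j, rfl⟩ : ∃ j, T = j + k := ⟨T - k, by omega⟩
  rw [Function.iterate_add_apply, e, iterate_of_halted hc]


end Crest.Agent.R309.RamAux
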