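import Crest.Agent.PVb.R309.Tape
import Crest.Agent.PVb.R309.RamAux2
import Crest.Prelude.Def_WordRAM
import Crest.Prelude.Def_WordRAMProb

-- ▼ part PVb/R309/MacDef
section

/-!
# R309: macro machines (definitions)

A macro machine has a state and a memory.  One step reads the memory cell `rd s`, draws one random
bit, moves to the state `s' = nx s value bit` and writes `(wr s').2` at the address `(wr s').1`.  It has
halted when `fin s = some k`; its output is then the content of the cells `0, …, k-1`.
-/

set_option linter.dupNamespace false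

namespace Crest.Agent.R309

/-- Macro machines. -/
structure Mac (σ : Type) where
  /-- initial state -/
  s0 : σ
  /-- next state, from the value read and a random bit -/
  nx : σ → ℕ → Bool → σ
  /-- address to read -/
  rd : σ → ℕ
  /-- address and value to write on entering the state -/
  wr : σ → ℕ × ℕ
  /-- halting test and output length -/
  fin : σ → Option ℕ

namespace Mac

variable {σ : Type} (m : Mac σ)

/-- One step. -/
def step (c : σ × (ℕ → ℕ)) (b : Bool) : σ × (ℕ → ℕ) :=
  if (m.fin c.1).isSome then c else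
    (m.nx c.1 (c.2 (m.rd c.1)) b, Function.update c.2 (m.wr (m.nx c.1 (c.2 (m.rd c.1)) b)).1
      (m.wr (m.nx c.1 (c.2 (m.rd c.1)) b)).2)

/-- The run from a configuration, one random bit per step. -/
def go (c : σ × (ℕ → ℕ)) (l : List Bool) : σ × (ℕ → ℕ) := l.foldl m.step c

/-- The initial configuration. -/
def init (inp : List ℕ) : σ × (ℕ → ℕ) := (m.s0, fun i => inp.getD i 0)


@[simp] theorem go_nil (c : σ × (ℕ → ℕ)) : m.go c [] = c := rfl

@[simp] theorem go_cons (c : σ × (ℕ → ℕ)) (b : Bool) (l : List Bool) :
    m.go c (b :: l) = m.go (m.step c b) l := rfl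





end Mac

end Crest.Agent.R309
namespace Crest.Agent.R309.Mac.Out
end Crest.Agent.R309.Mac.Out
end

-- ▼ part PVb/R309/Ram
section

/-!
# R309: macro machines on the word RAM, step by step
-/

set_option linter.dupNamespace false

namespace Crest.Agent.R309

open Crest.Agent.Lib.PT Crest.WordRAM


theorem RamAux.exists_poly {f : ℕ → ℕ} (h : PB fun u : Un => f u.n) :
    ∃ c d, ∀ B, f B ≤ c * (B + 1) ^ d := by
  obtain ⟨c, d, h⟩ := h
  refine ⟨c * 2 ^ d, d, fun B => (h ⟨B⟩).trans ?_⟩
  rw [sz_un, mul_assoc, ← mul_pow]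
  exact Nat.mul_le_mul_left _ (Nat.pow_le_pow_left (by simp only []; omega) _)


end Crest.Agent.R309
namespace Crest.Agent.R309.Mac
end Crest.Agent.R309.Mac
end

-- ▼ part PVb/R309/RamProb

/-!
# R309: macro machines on the word RAM, probabilities
-/

set_option linter.dupNamespace false

namespace Crest.Agent.R309

open Crest.Agent.Lib.PT Crest.WordRAM

theorem rp_sum_bodd {w : ℕ} (hw : 1 ≤ w) (g : Bool → ℝ) :
    ∑ a : Fin (2 ^ w), g (a : ℕ).bodd = 2 ^ w * ((g false + g true) / 2) := by
  obtain ⟨k, rfl⟩ := Nat.exists_eq_add_of_le' hw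
  rw [Fin.sum_univ_eq_sum_range (fun a => g a.bodd), pow_succ', sum_range_two_mul]
  have e1 : ∀ x : ℕ, (2 * x).bodd = false := fun x => by simp
  have e2 : ∀ x : ℕ, (2 * x + 1).bodd = true := fun x => by simp
  simp only [e1, e2, Finset.sum_const, Finset.card_range, nsmul_eq_mul]
  push_cast
  ring

theorem rp_Ex_words {w : ℕ} (hw : 1 ≤ w) (T : ℕ) (f : List Bool → ℝ) :
    Ex T f = (∑ tab : Fin T → Fin (2 ^ w), f (List.ofFn fun i => (tab i : ℕ).bodd)) /
      (2 ^ w) ^ T := by
  induction T generalizing f with
  | zero => simp [Ex]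
  | succ T ih =>
    rw [Ex, ih, ih, ← (Fin.consEquiv fun _ : Fin (T + 1) => Fin (2 ^ w)).sum_comp,
      Fintype.sum_prod_type]
    simp only [Fin.consEquiv_apply, List.ofFn_succ, Fin.cons_zero, Fin.cons_succ]
    rw [rp_sum_bodd hw fun b => ∑ tab : Fin T → Fin (2 ^ w),
      f (b :: List.ofFn fun i => (tab i : ℕ).bodd)]
    field_simp
    ring

theorem rp_uniformProb_mono {Ω : Type*} [Fintype Ω] {E E' : Set Ω} (h : E ⊆ E') :
    Crest.FinProb.uniformProb E ≤ Crest.FinProb.uniformProb E' := by
  classical
  unfold Crest.FinProb.uniformProb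
  refine div_le_div_of_nonneg_right ?_ (Nat.cast_nonneg _)
  refine Nat.cast_le.2 (Finset.card_le_card fun x hx => ?_)
  simp only [Finset.mem_filter, Finset.mem_univ, true_and] at hx ⊢
  exact h hx

theorem rp_run_of_halted {P : Program} {w : ℕ} {ρ : ℕ → ℕ} {inp : List ℕ} {T T' : ℕ}
    (h : (run P w ρ inp T).halted = true) (hT : T ≤ T') : run P w ρ inp T' = run P w ρ inp T := by
  induction T', hT using Nat.le_induction with
  | base => rfl
  | succ k _ ih =>
    have : run P w ρ inp (k + 1) = step P w ρ (run P w ρ inp k) :=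
      Function.iterate_succ_apply' _ _ _
    rw [this, ih, step, if_pos h]


/-- The low bits of independent uniform words are independent fair bits.
Proof: induction on `T` (`Fin.consEquiv`), or count: for `w ≥ 1` exactly half of the words below
`2 ^ w` are odd. -/
theorem uniformProb_low (w T n : ℕ) (hw : 1 ≤ w) (hn : n ≤ T) (E : List Bool → Prop) :
    Crest.FinProb.uniformProb {tab : Fin T → Fin (2 ^ w) |
      E ((List.range n).map fun i => (streamOf tab i % 2 ^ w).bodd)} = Pr n E := by
  classical
  rw [← Pr_take hn, Pr, rp_Ex_words hw, Crest.FinProb.uniformProb]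
  have e : ∀ tab : Fin T → Fin (2 ^ w),
      ((List.range n).map fun i => (streamOf tab i % 2 ^ w).bodd) =
        (List.ofFn fun i => (tab i : ℕ).bodd).take n := by
    intro tab
    refine List.ext_getElem (by simp [hn]) fun i h1 h2 => ?_
    have hi : i < T := by
      rw [List.length_map, List.length_range] at h1; omega
    simp [streamOf, hi, Nat.mod_eq_of_lt (tab ⟨i, hi⟩).2]
  simp only [ind_eq, Finset.sum_boole, Set.mem_ofPred_eq, e]
  congr 1
  simp


end Crest.Agent.R309
namespace Crest.Agent.R309.Mac
end Crest.Agent.R309.Mac
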