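import Crest.Agent.PVb.Lib.PT.All
import Crest.Prelude.Def_FinProb

/-!
# R309: expectations over uniformly random bit strings
-/

set_option linter.dupNamespace false

namespace Crest.Agent.R309

open Finset Crest.Agent.Lib.PT

/-- Average of `f` over the bit strings of length `n`. -/
noncomputable def Ex : ℕ → (List Bool → ℝ) → ℝ
  | 0, f => f []
  | n + 1, f => (Ex n (fun l => f (false :: l)) + Ex n (fun l => f (true :: l))) / 2

open Classical in
/-- Indicator of a proposition. -/
noncomputable def ind (p : Prop) : ℝ := if p then 1 else 0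

/-- Fraction of the bit strings of length `n` satisfying `E`. -/
noncomputable def Pr (n : ℕ) (E : List Bool → Prop) : ℝ := Ex n fun l => ind (E l)

/-- The `n` lowest bits of `i`, least significant first. -/
def bitsN (n i : ℕ) : List Bool := (List.range n).map fun j => i.testBit j

/-- Run `f` on `t` consecutive blocks of `ρ` bits. -/
def iter {σ : Type} (f : σ → List Bool → σ) (ρ t : ℕ) (s : σ) (l : List Bool) : σ :=
  (chunks ρ t l).foldl f s

theorem ind_pos {p : Prop} (h : p) : ind p = 1 := by simp [ind, h]
theorem ind_neg {p : Prop} (h : ¬ p) : ind p = 0 := by simp [ind, h]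
theorem ind_nonneg (p : Prop) : 0 ≤ ind p := by unfold ind; split_ifs <;> simp
theorem ind_le_one (p : Prop) : ind p ≤ 1 := by unfold ind; split_ifs <;> simp
theorem ind_eq (p : Prop) [Decidable p] : ind p = if p then 1 else 0 := by
  unfold ind; congr
theorem ind_mono {p q : Prop} (h : p → q) : ind p ≤ ind q := by
  by_cases hp : p
  · rw [ind_pos hp, ind_pos (h hp)]
  · rw [ind_neg hp]; exact ind_nonneg _
theorem ind_not (p : Prop) : ind (¬ p) = 1 - ind p := by
  by_cases hp : p <;> simp [ind, hp]

theorem Ex_mono {n : ℕ} {f g : List Bool → ℝ} (h : ∀ l, l.length = n → f l ≤ g l) :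
    Ex n f ≤ Ex n g := by
  induction n generalizing f g with
  | zero => exact h [] rfl
  | succ n ih =>
    have h1 := ih (f := fun l => f (false :: l)) (g := fun l => g (false :: l))
      fun l hl => h _ (by simp [hl])
    have h2 := ih (f := fun l => f (true :: l)) (g := fun l => g (true :: l))
      fun l hl => h _ (by simp [hl])
    simp only [Ex]; linarith

theorem Ex_congr {n : ℕ} {f g : List Bool → ℝ} (h : ∀ l, l.length = n → f l = g l) :
    Ex n f = Ex n g :=
  le_antisymm (Ex_mono fun l hl => (h l hl).le) (Ex_mono fun l hl => (h l hl).ge)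

@[simp] theorem Ex_const (n : ℕ) (c : ℝ) : Ex n (fun _ => c) = c := by
  induction n with
  | zero => rfl
  | succ n ih => simp [Ex, ih]








theorem Ex_le {n : ℕ} {f : List Bool → ℝ} {c : ℝ} (h : ∀ l, l.length = n → f l ≤ c) :
    Ex n f ≤ c := by
  simpa using Ex_mono (g := fun _ => c) h



theorem Ex_append (n m : ℕ) (f : List Bool → ℝ) :
    Ex (n + m) f = Ex n fun l => Ex m fun l' => f (l ++ l') := by
  induction n generalizing f with
  | zero => simp [Ex]
  | succ n ih => rw [Nat.add_right_comm]; simp only [Ex, ih, List.cons_append]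

/-- A prefix and the rest of a random string are independent random strings. -/
theorem Ex_take_drop {k n : ℕ} (h : k ≤ n) (f : List Bool → List Bool → ℝ) :
    Ex n (fun l => f (l.take k) (l.drop k)) = Ex k fun l => Ex (n - k) (f l) := by
  obtain ⟨m, rfl⟩ := Nat.exists_eq_add_of_le h
  rw [Ex_append, Nat.add_sub_cancel_left]
  refine Ex_congr fun l hl => ?_
  simp [← hl]

theorem Ex_take {k n : ℕ} (h : k ≤ n) (f : List Bool → ℝ) :
    Ex n (fun l => f (l.take k)) = Ex k f := by
  simpa using Ex_take_drop h fun l _ => f l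


theorem Pr_le_one (n : ℕ) (E : List Bool → Prop) : Pr n E ≤ 1 := Ex_le fun _ _ => ind_le_one _








theorem Pr_take {k n : ℕ} (h : k ≤ n) (E : List Bool → Prop) :
    Pr n (fun l => E (l.take k)) = Pr k E := Ex_take h fun l => ind (E l)



@[simp] theorem length_bitsN (n i : ℕ) : (bitsN n i).length = n := by simp [bitsN]


theorem sum_range_two_mul (n : ℕ) (g : ℕ → ℝ) :
    ∑ i ∈ range (2 * n), g i = ∑ i ∈ range n, (g (2 * i) + g (2 * i + 1)) := by
  induction n with
  | zero => simp
  | succ n ih => rw [Nat.mul_succ, Finset.sum_range_succ, Finset.sum_range_succ, ih,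
      Finset.sum_range_succ]; ring










@[simp] theorem chunks_zero {β : Type} (ρ : ℕ) (l : List β) : chunks ρ 0 l = [] := rfl

@[simp] theorem length_chunks {β : Type} (ρ t : ℕ) (l : List β) : (chunks ρ t l).length = t := by
  simp [chunks]



section iter

variable {σ : Type} (f : σ → List Bool → σ) (ρ : ℕ)

@[simp] theorem iter_zero (s : σ) (l : List Bool) : iter f ρ 0 s l = s := rfl










end iter

@[fun_prop] theorem bitsN_pt {α : Type} [Enc α] {n i : α → ℕ} (hn : PT n) (hb : PB n) (hi : PT i) :
    PT fun a => bitsN (n a) (i a) := by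
  unfold bitsN; fun_prop


end Crest.Agent.R309
private theorem rz_39456a04d8 : type_of% @_root_.Crest.Agent.R309.Ex.eq_def := @_root_.Crest.Agent.R309.Ex.eq_def -- L15
private theorem rz_c227242ebf : type_of% @_root_.Crest.Agent.R309.Ex.eq_1 := @_root_.Crest.Agent.R309.Ex.eq_1 -- L15
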